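import Mathlib

/-!
# P314: an explicit hitting set for differences of two products of linear forms

In the free algebra `K⟨x_1, …, x_n⟩` consider `f = ℓ_1 ⋯ ℓ_D - m_1 ⋯ m_D`, a difference of two
ordered products of `D` linear forms (for instance the commutator `x_1 x_2 - x_2 x_1`, which
vanishes at every scalar point).  For every set `S` of more than `n D` field elements, `f` is
nonzero if and only if it is nonzero at one of the `D |S|^2` matrix points of size `D + 1`
`x_j ↦ Σ_{i < D} w_i(j) E_{i,i+1}`, where all rows `w_i` are the point `(t, t^2, …, t^n)` except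
the row `k0`, which is `(t', t'^2, …, t'^n)`, with `k0 < D` and `t, t' ∈ S`.
-/

namespace Vale.Agent.Results.P314.B_TwoProducts

open Polynomial

/-- The linear form `Σ_j c j • x_j` in the free algebra on `n` noncommuting variables. -/
noncomputable def linForm {K : Type} [Field K] {n : ℕ} (c : Fin n → K) : FreeAlgebra K (Fin n) :=
  ∑ j, c j • FreeAlgebra.ι K j

/-- The ordered product `ℓ(a 0) ℓ(a 1) ⋯ ℓ(a (D-1))` of `D` linear forms. -/
noncomputable def prodForms {K : Type} [Field K] {n : ℕ} (D : ℕ) (a : ℕ → Fin n → K) :
    FreeAlgebra K (Fin n) :=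
  ((List.range D).map (fun k => linForm (a k))).prod

/-- The matrix of size `D + 1` substituted for the variable `x_j`: its entry in row `r` and
column `r + 1` is `w r j`, all other entries are zero. -/
def shiftPoint {K : Type} [Field K] {n : ℕ} (D : ℕ) (w : ℕ → Fin n → K) (j : Fin n) :
    Matrix (Fin (D + 1)) (Fin (D + 1)) K :=
  Matrix.of (fun r s => if (s : ℕ) = (r : ℕ) + 1 then w r j else 0)

/-- Ordered matrix evaluation of a noncommutative polynomial at the tuple `shiftPoint D w`. -/
noncomputable def evalAt {K : Type} [Field K] {n : ℕ} (D : ℕ) (w : ℕ → Fin n → K) :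
    FreeAlgebra K (Fin n) →ₐ[K] Matrix (Fin (D + 1)) (Fin (D + 1)) K :=
  FreeAlgebra.lift K (shiftPoint D w)

/-- The rows of the test points: row `k0` is `(t', t'^2, …, t'^n)`, every other row is
`(t, t^2, …, t^n)`. -/
def table {K : Type} [Field K] {n : ℕ} (k0 : ℕ) (t t' : K) : ℕ → Fin n → K :=
  fun i j => if i = k0 then t' ^ ((j : ℕ) + 1) else t ^ ((j : ℕ) + 1)

section
variable {K : Type} [Field K] {n : ℕ}

/-- weighted shift matrix -/
def shiftMat (D : ℕ) (μ : ℕ → K) : Matrix (Fin (D + 1)) (Fin (D + 1)) K :=
  Matrix.of (fun r s => if (s : ℕ) = (r : ℕ) + 1 then μ r else 0)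

theorem shift_prod (D : ℕ) (lam : ℕ → ℕ → K) (m : ℕ) (hm : m ≤ D) (s : Fin (D + 1)) :
    (((List.range m).map (fun k => shiftMat D (lam k))).prod) 0 s =
      if (s : ℕ) = m then ∏ k ∈ Finset.range m, lam k k else 0 := by
  induction m generalizing s with
  | zero =>
    simp only [List.range_zero, List.map_nil, List.prod_nil, Finset.range_zero,
      Finset.prod_empty, Matrix.one_apply]
    by_cases h : (s : ℕ) = 0
    · have : (0 : Fin (D + 1)) = s := Fin.ext (by simp [h])
      simp [h, this]
    · have : (0 : Fin (D + 1)) ≠ s := fun e => h (by rw [← e]; rfl)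
      simp [h, this]
  | succ m ih =>
    rw [List.range_succ, List.map_append, List.prod_append, List.map_singleton,
      List.prod_singleton, Matrix.mul_apply]
    have hm' : m ≤ D := by omega
    rw [Finset.sum_eq_single (⟨m, by omega⟩ : Fin (D + 1))]
    · rw [ih hm']
      simp only [shiftMat, Matrix.of_apply, if_true]
      by_cases h : (s : ℕ) = m + 1
      · simp [h, Finset.prod_range_succ]
      · simp [h]
    · intro l _ hl
      rw [ih hm']
      have : (l : ℕ) ≠ m := fun e => hl (Fin.ext e)
      simp [this]
    · intro h
      exact absurd (Finset.mem_univ _) h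

theorem evalAt_linForm (D : ℕ) (w : ℕ → Fin n → K) (c : Fin n → K) :
    evalAt D w (linForm c) = shiftMat D (fun r => ∑ j, c j * w r j) := by
  ext r s
  simp only [evalAt, linForm, map_sum, map_smul, FreeAlgebra.lift_ι_apply, shiftPoint, shiftMat,
    Matrix.sum_apply, Matrix.smul_apply, Matrix.of_apply, smul_eq_mul]
  by_cases h : (s : ℕ) = (r : ℕ) + 1
  · simp [h]
  · simp [h]

theorem evalAt_prodForms (D : ℕ) (w : ℕ → Fin n → K) (a : ℕ → Fin n → K) :
    (evalAt D w (prodForms D a)) 0 (Fin.last D) = ∏ k ∈ Finset.range D, ∑ j, a k j * w k j := by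
  unfold prodForms
  rw [map_list_prod, List.map_map]
  have e : (⇑(evalAt D w) ∘ fun k => linForm (a k)) =
      fun k => shiftMat D ((fun k r => ∑ j, a k j * w r j) k) := by
    funext k
    exact evalAt_linForm D w (a k)
  rw [e, shift_prod D (fun k r => ∑ j, a k j * w r j) D le_rfl (Fin.last D)]
  simp

/-- the univariate polynomial of a linear form on the curve `(t, t^2, …, t^n)` -/
noncomputable def curvePoly (c : Fin n → K) : K[X] :=
  ∑ j : Fin n, C (c j) * X ^ ((j : ℕ) + 1)

theorem curvePoly_coeff (c : Fin n → K) (j : Fin n) : (curvePoly c).coeff ((j : ℕ) + 1) = c j := by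
  simp only [curvePoly, finsetSum_coeff, coeff_C_mul, coeff_X_pow]
  rw [Finset.sum_eq_single j]
  · simp
  · intro i _ hij
    have hne : (j : ℕ) ≠ (i : ℕ) := fun h => hij (Fin.ext h.symm)
    simp [hne]
  · intro h
    exact absurd (Finset.mem_univ j) h

theorem curvePoly_natDegree (c : Fin n → K) : (curvePoly c).natDegree ≤ n := by
  unfold curvePoly
  apply natDegree_sum_le_of_forall_le
  intro j _
  exact (natDegree_C_mul_X_pow_le _ _).trans (by omega)

theorem curvePoly_eval (c : Fin n → K) (t : K) :
    (curvePoly c).eval t = ∑ j, c j * t ^ ((j : ℕ) + 1) := by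
  simp [curvePoly, eval_finsetSum]

theorem linForm_eq_zero (c : Fin n → K) (h : curvePoly c = 0) : linForm c = 0 := by
  have h1 : ∀ j, c j = 0 := by
    intro j
    rw [← curvePoly_coeff c j, h, coeff_zero]
  simp [linForm, h1]

theorem prodForms_eq_zero (D : ℕ) (a : ℕ → Fin n → K) (k : ℕ) (hk : k < D)
    (h : curvePoly (a k) = 0) : prodForms D a = 0 := by
  unfold prodForms
  apply List.prod_eq_zero
  rw [List.mem_map]
  exact ⟨k, List.mem_range.2 hk, linForm_eq_zero (a k) h⟩

theorem prodForms_smul (D : ℕ) (a b : ℕ → Fin n → K) (g : ℕ → K)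
    (h : ∀ k < D, ∀ j, a k j = g k * b k j) :
    prodForms D a = (∏ k ∈ Finset.range D, g k) • prodForms D b := by
  induction D with
  | zero => simp [prodForms]
  | succ D ih =>
    have ih' := ih (fun k hk => h k (by omega))
    unfold prodForms at ih' ⊢
    rw [List.range_succ, List.map_append, List.prod_append, List.map_append, List.prod_append,
      ih', Finset.prod_range_succ]
    simp only [List.map_singleton, List.prod_singleton]
    have e : linForm (a D) = g D • linForm (b D) := by
      unfold linForm
      rw [Finset.smul_sum]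
      apply Finset.sum_congr rfl
      intro j _
      rw [h D (by omega) j, mul_smul]
    rw [e, smul_mul_smul_comm]

/-- value of the corner entry at a test point -/
theorem corner (D : ℕ) (a : ℕ → Fin n → K) (k0 : ℕ) (t t' : K) :
    (evalAt D (table k0 t t') (prodForms D a)) 0 (Fin.last D) =
      ∏ k ∈ Finset.range D,
        (if k = k0 then (curvePoly (a k)).eval t' else (curvePoly (a k)).eval t) := by
  rw [evalAt_prodForms]
  apply Finset.prod_congr rfl
  intro k _
  by_cases h : k = k0
  · simp [table, h, curvePoly_eval]
  · simp [table, h, curvePoly_eval]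

theorem corner_split (D : ℕ) (a : ℕ → Fin n → K) (k0 : ℕ) (hk : k0 < D) (t t' : K) :
    (∏ k ∈ Finset.range D,
        (if k = k0 then (curvePoly (a k)).eval t' else (curvePoly (a k)).eval t)) =
      (curvePoly (a k0)).eval t' * ∏ k ∈ (Finset.range D).erase k0, (curvePoly (a k)).eval t := by
  rw [← Finset.mul_prod_erase (Finset.range D) _ (Finset.mem_range.2 hk)]
  simp only [if_true]
  congr 1
  apply Finset.prod_congr rfl
  intro k hk'
  rw [if_neg (Finset.ne_of_mem_erase hk')]

end

/-- Differences of two products of linear forms have an explicit hitting set of matrix points.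
Let `K` be a field, `a k` and `b k` (`k < D`) the coefficient vectors of linear forms in `n`
noncommuting variables, and `S` a finite set of more than `n * D` elements of `K`.  Then
`ℓ(a 0) ⋯ ℓ(a (D-1)) - ℓ(b 0) ⋯ ℓ(b (D-1))` is nonzero in the free algebra if and only if its
evaluation at one of the matrix points `shiftPoint D (table k0 t t')`, `k0 < D`, `t, t' ∈ S`, is a
nonzero matrix. -/
theorem result (K : Type) [Field K] (n D : ℕ) (a b : ℕ → Fin n → K) (S : Finset K)
    (hS : n * D < S.card) :
    prodForms D a - prodForms D b ≠ 0 ↔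
      ∃ k0, k0 < D ∧ ∃ t ∈ S, ∃ t' ∈ S,
        evalAt D (table k0 t t') (prodForms D a - prodForms D b) ≠ 0 := by
  constructor
  · intro hf
    by_contra hcon
    push Not at hcon
    apply hf
    -- equality of the corner entries at all test points
    have hE : ∀ k0, k0 < D → ∀ t ∈ S, ∀ t' ∈ S,
        (∏ k ∈ Finset.range D,
          (if k = k0 then (curvePoly (a k)).eval t' else (curvePoly (a k)).eval t)) =
        ∏ k ∈ Finset.range D,
          (if k = k0 then (curvePoly (b k)).eval t' else (curvePoly (b k)).eval t) := by
      intro k0 hk0 t ht t' ht'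
      have h0 := hcon k0 hk0 t ht t' ht'
      rw [map_sub, sub_eq_zero] at h0
      rw [← corner, ← corner, h0]
    rcases Nat.eq_zero_or_pos D with hD | hD
    · subst hD
      simp [prodForms]
    -- the two product polynomials agree
    have hdegA : (∏ k ∈ Finset.range D, curvePoly (a k)).natDegree ≤ n * D := by
      refine (natDegree_prod_le _ _).trans ?_
      have := Finset.sum_le_card_nsmul (Finset.range D) (fun k => (curvePoly (a k)).natDegree) n
        (fun k _ => curvePoly_natDegree (a k))
      simpa [mul_comm] using this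
    have hdegB : (∏ k ∈ Finset.range D, curvePoly (b k)).natDegree ≤ n * D := by
      refine (natDegree_prod_le _ _).trans ?_
      have := Finset.sum_le_card_nsmul (Finset.range D) (fun k => (curvePoly (b k)).natDegree) n
        (fun k _ => curvePoly_natDegree (b k))
      simpa [mul_comm] using this
    have hQ : (∏ k ∈ Finset.range D, curvePoly (a k)) = ∏ k ∈ Finset.range D, curvePoly (b k) := by
      apply eq_of_natDegree_lt_card_of_eval_eq' _ _ S
      · intro t ht
        have := hE 0 hD t ht t ht
        simpa [eval_prod] using this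
      · exact lt_of_le_of_lt (max_le hdegA hdegB) hS
    by_cases hA0 : (∏ k ∈ Finset.range D, curvePoly (a k)) = 0
    · -- both products vanish
      have hB0 : (∏ k ∈ Finset.range D, curvePoly (b k)) = 0 := by rw [← hQ]; exact hA0
      obtain ⟨k, hk, hka⟩ := Finset.prod_eq_zero_iff.1 hA0
      obtain ⟨k', hk', hkb⟩ := Finset.prod_eq_zero_iff.1 hB0
      rw [prodForms_eq_zero D a k (Finset.mem_range.1 hk) hka,
        prodForms_eq_zero D b k' (Finset.mem_range.1 hk') hkb, sub_zero]
    · -- a point where nothing vanishes
      obtain ⟨t0, ht0, hq⟩ : ∃ t0 ∈ S, (∏ k ∈ Finset.range D, curvePoly (a k)).eval t0 ≠ 0 := by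
        by_contra hno
        push Not at hno
        exact hA0 (eq_zero_of_natDegree_lt_card_of_eval_eq_zero' _ S hno
          (lt_of_le_of_lt hdegA hS))
      have hqB : (∏ k ∈ Finset.range D, curvePoly (b k)).eval t0 ≠ 0 := by rw [← hQ]; exact hq
      rw [eval_prod] at hq hqB
      have hA1 : ∀ k < D, (curvePoly (a k)).eval t0 ≠ 0 := fun k hk =>
        (Finset.prod_ne_zero_iff.1 hq) k (Finset.mem_range.2 hk)
      have hB1 : ∀ k < D, (curvePoly (b k)).eval t0 ≠ 0 := fun k hk =>
        (Finset.prod_ne_zero_iff.1 hqB) k (Finset.mem_range.2 hk)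
      have hqq : (∏ k ∈ Finset.range D, (curvePoly (a k)).eval t0) =
          ∏ k ∈ Finset.range D, (curvePoly (b k)).eval t0 := by
        rw [← eval_prod, ← eval_prod, hQ]
      -- proportionality of the forms
      have hprop : ∀ k0 < D, ∀ j, a k0 j =
          ((curvePoly (a k0)).eval t0 / (curvePoly (b k0)).eval t0) * b k0 j := by
        intro k0 hk0 j
        have hpoly : curvePoly (a k0) * C ((curvePoly (b k0)).eval t0) =
            curvePoly (b k0) * C ((curvePoly (a k0)).eval t0) := by
          apply eq_of_natDegree_lt_card_of_eval_eq' _ _ S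
          · intro t' ht'
            have e1 := hE k0 hk0 t0 ht0 t' ht'
            rw [corner_split D a k0 hk0, corner_split D b k0 hk0] at e1
            have e2 := Finset.mul_prod_erase (Finset.range D) (fun k => (curvePoly (a k)).eval t0)
              (Finset.mem_range.2 hk0)
            have e3 := Finset.mul_prod_erase (Finset.range D) (fun k => (curvePoly (b k)).eval t0)
              (Finset.mem_range.2 hk0)
            beta_reduce at e2 e3
            rw [← hqq] at e3
            rw [eval_mul, eval_mul, eval_C, eval_C]
            apply mul_left_cancel₀ hq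
            linear_combination
              ((curvePoly (a k0)).eval t0 * (curvePoly (b k0)).eval t0) * e1 -
              ((curvePoly (a k0)).eval t' * (curvePoly (b k0)).eval t0) * e2 +
              ((curvePoly (b k0)).eval t' * (curvePoly (a k0)).eval t0) * e3
          · have h1 := (natDegree_mul_C_le (curvePoly (a k0)) ((curvePoly (b k0)).eval t0)).trans
              (curvePoly_natDegree (a k0))
            have h2 := (natDegree_mul_C_le (curvePoly (b k0)) ((curvePoly (a k0)).eval t0)).trans
              (curvePoly_natDegree (b k0))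
            have h3 : n ≤ n * D := Nat.le_mul_of_pos_right n hD
            exact lt_of_le_of_lt (max_le (h1.trans h3) (h2.trans h3)) hS
        have hc := congrArg (fun p => p.coeff ((j : ℕ) + 1)) hpoly
        simp only [coeff_mul_C, curvePoly_coeff] at hc
        have hb := hB1 k0 hk0
        field_simp
        linear_combination hc
      have hone : (∏ k ∈ Finset.range D,
          ((curvePoly (a k)).eval t0 / (curvePoly (b k)).eval t0)) = 1 := by
        rw [Finset.prod_div_distrib, hqq]
        exact div_self hqB
      rw [prodForms_smul D a b _ hprop, hone, one_smul, sub_self]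
  · rintro ⟨k0, _, t, _, t', _, h⟩ h0
    rw [h0, map_zero] at h
    exact h rfl

end Vale.Agent.Results.P314.B_TwoProducts
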